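import Vale.Agent.P321.Induct
import Vale.Agent.P321.BaseLevel
import Vale.Agent.P321.Finite

/-!
Worst-case trace reconstruction needs more than polynomially many traces at every deletion rate.
-/

namespace Vale.Agent.Results.P321.SuperPolynomial

open Vale.Agent.P321

theorem result :
    ∀ q : ℝ, 0 < q → q < 1 → (∀ n : ℕ, ∃ m : ℕ, CanReconstruct q n m) ∧
      ∀ (k : ℕ) (C : ℝ), ∃ n₀ : ℕ, ∀ n ≥ n₀, ∀ m : ℕ,
        CanReconstruct q n m → C * (n : ℝ) ^ k < m := by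
  intro q hq hq1
  refine ⟨exists_canReconstruct hq.le hq1, fun k C => ?_⟩
  have hbase : LvlW q 40001 79984 49990 := by
    have h := baseLevel hq hq1 (e := 10000) (by norm_num)
    norm_num at h
    exact h
  obtain ⟨n₀, hn₀⟩ := superpolynomial_of_pairs hq.le hq1.le
    (pairsAt_of_base hq.le hq1.le hbase) (k + 1)
  refine ⟨n₀ + ⌈C⌉₊ + 1, fun n hn m hm => ?_⟩
  refine lt_of_lt_of_le ?_ (hn₀ n (by omega) m hm)
  have h1 : (((⌈C⌉₊ + 1 : ℕ)) : ℝ) ≤ n := by exact_mod_cast (by omega : ⌈C⌉₊ + 1 ≤ n)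
  have hn0 : 0 < (n : ℝ) := by exact_mod_cast (by omega : 0 < n)
  rw [pow_succ']
  refine mul_lt_mul_of_pos_right ?_ (pow_pos hn0 k)
  have h2 := Nat.le_ceil C
  push_cast at h1
  linarith

end Vale.Agent.Results.P321.SuperPolynomial
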